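import Mathlib
import Vale.Agent.H48.Littlewood

/-!
# P110: a rate obstruction for ultraflat real Littlewood polynomials

For every real Littlewood polynomial `P(z) = ∑_{k<N} ε_k z^k`, `ε_k = ±1`: if
`m ≤ |P(z)|^2 ≤ M` on the unit circle then the product of `M - N` and `N - m` is at least
`N - 1`; consequently `| |P(z)|/√N - 1 |` is at least `√(N-1)/(2N)` somewhere on the circle.  The proof uses
Parseval's identity for `P R - N X^(N-1)`, where `R` is the reversal of `P`, and the fact that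
`P R` is congruent to `∑_{k<N} X^(2k)` modulo `2`.
-/

namespace Vale.Agent.Results.P110.C_RateObstruction

open Vale.Agent.H48.Littlewood

theorem result (N : ℕ) (ε : ℕ → ℤ) (hε : ∀ k, ε k = 1 ∨ ε k = -1) :
    (∀ m M : ℝ,
      (∀ z : ℂ, ‖z‖ = 1 →
        m ≤ ‖∑ k ∈ Finset.range N, (ε k : ℂ) * z ^ k‖ ^ 2 ∧
          ‖∑ k ∈ Finset.range N, (ε k : ℂ) * z ^ k‖ ^ 2 ≤ M) →
      (N : ℝ) - 1 ≤ (M - N) * (N - m)) ∧
    (∀ c : ℝ,
      (∀ z : ℂ, ‖z‖ = 1 →
        |‖∑ k ∈ Finset.range N, (ε k : ℂ) * z ^ k‖ / Real.sqrt N - 1| ≤ c) →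
      Real.sqrt (N - 1) / (2 * N) ≤ c) := by
  refine ⟨fun m M hmM => prod_form N ε hε m M hmM, fun c hc => ?_⟩
  have hc0 : 0 ≤ c := (abs_nonneg _).trans (hc 1 (by simp))
  rcases Nat.eq_zero_or_pos N with h0 | hpos
  · subst h0
    simpa using hc0
  have hN : (0 : ℝ) < N := by exact_mod_cast hpos
  have hN1 : (1 : ℝ) ≤ N := by exact_mod_cast hpos
  have hsqN : Real.sqrt (N - 1) ≤ N := by
    rw [Real.sqrt_le_left (by linarith)]
    nlinarith
  rw [div_le_iff₀ (by positivity)]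
  rcases lt_or_ge c 1 with hc1 | hc1
  · -- `c < 1`: apply the product form with `m = (1-c)^2 N`, `M = (1+c)^2 N`
    have hsq : Real.sqrt N ^ 2 = N := Real.sq_sqrt hN.le
    have hsq0 : 0 < Real.sqrt N := Real.sqrt_pos.2 hN
    have hmM : ∀ z : ℂ, ‖z‖ = 1 →
        (1 - c) ^ 2 * N ≤ ‖∑ k ∈ Finset.range N, (ε k : ℂ) * z ^ k‖ ^ 2 ∧
          ‖∑ k ∈ Finset.range N, (ε k : ℂ) * z ^ k‖ ^ 2 ≤ (1 + c) ^ 2 * N := by
      intro z hz
      set a := ‖∑ k ∈ Finset.range N, (ε k : ℂ) * z ^ k‖ with ha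
      have ha0 : 0 ≤ a := norm_nonneg _
      set u := a / Real.sqrt N with hu
      have hu0 : 0 ≤ u := div_nonneg ha0 hsq0.le
      have h1 := abs_le.1 (hc z hz)
      have hau : a ^ 2 = u ^ 2 * N := by
        have : a = u * Real.sqrt N := by rw [hu]; field_simp
        rw [this, mul_pow, hsq]
      rw [hau]
      constructor
      · refine mul_le_mul_of_nonneg_right ?_ hN.le
        nlinarith [h1.1, h1.2]
      · refine mul_le_mul_of_nonneg_right ?_ hN.le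
        nlinarith [h1.1, h1.2]
    have hp := prod_form N ε hε ((1 - c) ^ 2 * N) ((1 + c) ^ 2 * N) hmM
    have hp2 : (N : ℝ) - 1 ≤ (c * (2 * N)) ^ 2 := by
      have h3 : ((1 + c) ^ 2 * N - N) * (N - (1 - c) ^ 2 * N)
          = (c * (2 * N)) ^ 2 - c ^ 4 * (N : ℝ) ^ 2 := by ring
      have h4 : 0 ≤ c ^ 4 * (N : ℝ) ^ 2 := by positivity
      linarith
    have hnn : 0 ≤ c * (2 * (N : ℝ)) := by positivity
    calc Real.sqrt (N - 1) ≤ Real.sqrt ((c * (2 * N)) ^ 2) := Real.sqrt_le_sqrt hp2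
      _ = c * (2 * N) := Real.sqrt_sq hnn
  · nlinarith

end Vale.Agent.Results.P110.C_RateObstruction
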