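import Mathlib
import Vale.Agent.Results.P110.C_RateObstruction

/-!
P110: the rate obstruction of `C_RateObstruction` together with its corollary for the maximum.

For a real Littlewood polynomial `P(z) = ∑_{k<N} ε_k z^k` (`ε_k = ±1`):
(a) if `m ≤ |P(z)|^2 ≤ M` on the unit circle then `(M - N)(N - m) ≥ N - 1`;
(b) if `| |P(z)|/√N - 1 | ≤ c` on the unit circle then `c ≥ √(N-1)/(2N)`;
(c) for `N ≥ 1`, every upper bound `M` of `|P(z)|^2` on the unit circle is at least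
`N + 1 - 1/N` (this is (a) with `m = 0`).
-/

namespace Vale.Agent.Results.P110.D_RateObstructionMaxBound

theorem result (N : ℕ) (ε : ℕ → ℤ) (hε : ∀ k, ε k = 1 ∨ ε k = -1) :
    (∀ m M : ℝ,
      (∀ z : ℂ, ‖z‖ = 1 →
        m ≤ ‖∑ k ∈ Finset.range N, (ε k : ℂ) * z ^ k‖ ^ 2 ∧
          ‖∑ k ∈ Finset.range N, (ε k : ℂ) * z ^ k‖ ^ 2 ≤ M) →
      (N : ℝ) - 1 ≤ (M - N) * (N - m)) ∧
    (∀ c : ℝ,
      (∀ z : ℂ, ‖z‖ = 1 →
        |‖∑ k ∈ Finset.range N, (ε k : ℂ) * z ^ k‖ / Real.sqrt N - 1| ≤ c) →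
      Real.sqrt (N - 1) / (2 * N) ≤ c) ∧
    (1 ≤ N → ∀ M : ℝ,
      (∀ z : ℂ, ‖z‖ = 1 → ‖∑ k ∈ Finset.range N, (ε k : ℂ) * z ^ k‖ ^ 2 ≤ M) →
      (N : ℝ) + 1 - 1 / N ≤ M) := by
  obtain ⟨ha, hb⟩ := Vale.Agent.Results.P110.C_RateObstruction.result N ε hε
  refine ⟨ha, hb, fun hN M hM => ?_⟩
  have h := ha 0 M (fun z hz => ⟨by positivity, hM z hz⟩)
  have hN' : (1 : ℝ) ≤ N := by exact_mod_cast hN
  have hpos : (0 : ℝ) < N := by linarith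
  rw [sub_zero] at h
  have e : (N : ℝ) + 1 - 1 / N = N + (N - 1) / N := by
    field_simp
    ring
  rw [e]
  have h2 : ((N : ℝ) - 1) / N ≤ M - N := by
    rw [div_le_iff₀ hpos]
    exact h
  linarith

end Vale.Agent.Results.P110.D_RateObstructionMaxBound
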